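import Mathlib

/-!
# Row 262, SLC (helper57): weighted numerical blow-down

A configuration `Cfg` is the intersection matrix `M` of finitely many "curves" `E i` (`i ∈ s`) with
weights `δ i`, `k i = K · E i`.  `C.Sol t u c` says that `U + ∑_{i ∈ t} c i E i` is orthogonal to all
`E j`, `j ∈ t`, when `u j = U · E j`.

* `Sol.nonneg` (negativity), `Sol.uniq`;
* `Sol.int`   : terminal implies that all pull-back coefficients are integers;
* `Sol.diff`  : the different is effective;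
* `extr`      : a terminal extraction of one curve over a terminal point is the blow-up;
* `third`     : a contracted curve which is not exceptional over a smooth model has crepant
  coefficient `≥ 1 / 3`.
-/

set_option autoImplicit false
set_option linter.unusedSectionVars false

open Finset

namespace Crest.Agent.X262.Slc57

/-- intersection data; `T` is the set of all curves, `s ⊆ T` the contracted ones -/
structure Cfg (ι : Type*) where
  /-- the contracted curves -/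
  s : Finset ι
  /-- the intersection matrix -/
  M : ι → ι → ℤ
  /-- the weights -/
  δ : ι → ℤ
  /-- the degrees of the canonical class -/
  k : ι → ℤ
  symm : ∀ i j, M i j = M j i
  off : ∀ i j, i ≠ j → 0 ≤ M i j
  δ_pos : ∀ i ∈ s, 0 < δ i
  dvdM : ∀ i ∈ s, ∀ j, δ i ∣ M i j
  dvdk : ∀ i ∈ s, δ i ∣ k i
  neg : ∀ c : ι → ℚ, (∃ i ∈ s, c i ≠ 0) → ∑ i ∈ s, ∑ j ∈ s, c i * c j * M i j < 0
  adj : ∀ i ∈ s, -2 * δ i ≤ k i + M i i

namespace Cfg

variable {ι : Type*} [DecidableEq ι] (C : Cfg ι)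

/-- `(U + ∑_{i ∈ t} c i E i) · E j` -/
def ev (t : Finset ι) (u c : ι → ℚ) (j : ι) : ℚ := u j + ∑ i ∈ t, c i * C.M j i

/-- `U + ∑_{i ∈ t} c i E i` is orthogonal to the curves of `t` -/
def Sol (t : Finset ι) (u c : ι → ℚ) : Prop := ∀ j ∈ t, C.ev t u c j = 0

/-- the quadratic form -/
def Q (t : Finset ι) (c : ι → ℚ) : ℚ := ∑ i ∈ t, ∑ j ∈ t, c i * c j * C.M i j

variable {C} {t : Finset ι} {u c c' : ι → ℚ} {e i₀ : ι}

theorem Q_ext (ht : t ⊆ C.s) (c : ι → ℚ) :
    C.Q t c = C.Q C.s fun i => if i ∈ t then c i else 0 := by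
  unfold Q
  rw [← sum_subset ht fun i _ hi => by simp [hi]]
  refine sum_congr rfl fun i hi => ?_
  rw [← sum_subset ht fun j _ hj => by simp [hj]]
  exact sum_congr rfl fun j hj => by simp [hi, hj]

theorem Q_neg (ht : t ⊆ C.s) (h : ∃ i ∈ t, c i ≠ 0) : C.Q t c < 0 := by
  obtain ⟨i, hi, h⟩ := h
  rw [Q_ext ht]
  exact C.neg _ ⟨i, ht hi, by simpa [hi] using h⟩

theorem M_neg (he : e ∈ C.s) : C.M e e < 0 := by
  have h := Q_neg (C := C) (t := {e}) (c := fun _ => 1) (by simpa using he) ⟨e, by simp, by simp⟩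
  simp only [Q, sum_singleton, one_mul] at h
  exact_mod_cast h

theorem le_neg_of_dvd {d x : ℤ} (h : d ∣ x) (hx : x < 0) : x ≤ -d := by
  have := Int.le_of_dvd (neg_pos.2 hx) (h.neg_right)
  omega

/-- a curve of negative degree is a `(-1)`-curve -/
theorem one_of_neg (he : e ∈ C.s) (hk : C.k e < 0) : C.k e = -C.δ e ∧ C.M e e = -C.δ e := by
  have h1 := le_neg_of_dvd (C.dvdk e he) hk
  have h2 := le_neg_of_dvd (C.dvdM e he e) (M_neg he)
  have h3 := C.adj e he
  omega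

theorem sum_ev (t : Finset ι) (u c x : ι → ℚ) : ∑ j ∈ t, x j * C.ev t u c j =
    ∑ j ∈ t, x j * u j + ∑ j ∈ t, ∑ i ∈ t, x j * c i * C.M j i := by
  rw [← sum_add_distrib]
  refine sum_congr rfl fun j _ => ?_
  rw [ev, mul_add, mul_sum]
  exact congrArg _ (sum_congr rfl fun i _ => by ring)

/-- **negativity lemma** -/
theorem nonneg_of_ev (ht : t ⊆ C.s) (h : ∀ j ∈ t, C.ev t u c j ≤ u j - u j)
    (hu : ∀ j ∈ t, 0 ≤ u j) : ∀ i ∈ t, 0 ≤ c i := by
  by_contra hcon
  push Not at hcon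
  obtain ⟨i, hi, hc⟩ := hcon
  let x : ι → ℚ := fun i => max (-c i) 0
  have hx : ∀ i, 0 ≤ x i := fun i => le_max_right _ _
  have h1 : C.Q t x < 0 := Q_neg ht ⟨i, hi, by
    simp only [x]
    exact (lt_max_of_lt_left (by linarith)).ne'⟩
  have h2 : ∑ j ∈ t, x j * C.ev t u c j ≤ 0 :=
    sum_nonpos fun j hj => mul_nonpos_of_nonneg_of_nonpos (hx j) (by simpa using h j hj)
  have h3 : 0 ≤ ∑ j ∈ t, x j * u j := sum_nonneg fun j hj => mul_nonneg (hx j) (hu j hj)
  have h4 : -C.Q t x ≤ ∑ j ∈ t, ∑ i ∈ t, x j * c i * C.M j i := by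
    rw [Q, ← sum_neg_distrib]
    refine sum_le_sum fun j _ => ?_
    rw [← sum_neg_distrib]
    refine sum_le_sum fun i _ => ?_
    by_cases hij : j = i
    · subst hij
      rcases le_total 0 (c j) with h0 | h0
      · have : x j = 0 := max_eq_right (by linarith)
        simp [this]
      · have : x j = -c j := max_eq_left (by linarith)
        rw [this]
        exact le_of_eq (by ring)
    · have h5 : (0 : ℚ) ≤ C.M j i := by exact_mod_cast C.off j i hij
      have h6 : 0 ≤ c i + x i := by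
        have := le_max_left (-c i) 0
        simp only [x]
        linarith
      have := mul_nonneg (mul_nonneg (hx j) h6) h5
      nlinarith
  rw [sum_ev] at h2
  linarith

theorem Sol.nonneg (h : C.Sol t u c) (ht : t ⊆ C.s) (hu : ∀ j ∈ t, 0 ≤ u j) : ∀ i ∈ t, 0 ≤ c i :=
  nonneg_of_ev ht (fun j hj => by rw [h j hj, sub_self]) hu

theorem Sol.add {u' : ι → ℚ} (h : C.Sol t u c) (h' : C.Sol t u' c') :
    C.Sol t (u + u') (c + c') := fun j hj => by
  have h1 := h j hj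
  have h2 := h' j hj
  simp only [ev, Pi.add_apply, add_mul, sum_add_distrib] at h1 h2 ⊢
  linarith

theorem Sol.smul (h : C.Sol t u c) (r : ℚ) : C.Sol t (r • u) (r • c) := fun j hj => by
  have h1 := congrArg (r * ·) (h j hj)
  simp only [ev, Pi.smul_apply, smul_eq_mul, mul_add, mul_sum, mul_zero] at h1 ⊢
  rw [← h1]
  exact congrArg _ (sum_congr rfl fun i _ => by ring)

theorem Sol.congr {u' : ι → ℚ} (h : C.Sol t u c) (hu : ∀ j ∈ t, u j = u' j) : C.Sol t u' c :=
  fun j hj => by rw [← h j hj, ev, ev, hu j hj]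

theorem Sol.mono {u' : ι → ℚ} (h : C.Sol t u c) (h' : C.Sol t u' c') (ht : t ⊆ C.s)
    (hu : ∀ j ∈ t, u j ≤ u' j) : ∀ i ∈ t, c i ≤ c' i := fun i hi => by
  have h1 := (h'.add (h.smul (-1))).nonneg ht (fun j hj => by
    have := hu j hj
    simp only [Pi.add_apply, Pi.smul_apply, smul_eq_mul]
    linarith) i hi
  simp only [Pi.add_apply, Pi.smul_apply, smul_eq_mul] at h1
  linarith


/-- positive discrepancies force a `(-1)`-curve -/
theorem Sol.exists_neg {a : ι → ℚ} (h : C.Sol t (fun j => C.k j) a) (ht : t ⊆ C.s)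
    (hne : t.Nonempty) (ha : ∀ i ∈ t, a i < 0) : ∃ i ∈ t, C.k i < 0 := by
  by_contra hcon
  push Not at hcon
  obtain ⟨i, hi⟩ := hne
  exact absurd (h.nonneg ht (fun j hj => by exact_mod_cast hcon j hj) i hi) (not_le.2 (ha i hi))

/-! ### the blow-down -/

variable (C) in
/-- the multiplicity of `E j` at the image of `E i₀` -/
def m (i₀ j : ι) : ℤ := C.M i₀ j / C.δ i₀

theorem m_mul (h0 : i₀ ∈ C.s) (j : ι) : C.m i₀ j * C.δ i₀ = C.M i₀ j :=
  Int.ediv_mul_cancel (C.dvdM i₀ h0 j)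

theorem m_nonneg (h0 : i₀ ∈ C.s) {j : ι} (hj : j ≠ i₀) : 0 ≤ C.m i₀ j :=
  Int.ediv_nonneg (C.off _ _ hj.symm) (C.δ_pos _ h0).le

theorem m_mulQ (h0 : i₀ ∈ C.s) (j : ι) : (C.m i₀ j : ℚ) * C.δ i₀ = C.M i₀ j := by
  exact_mod_cast m_mul h0 j

theorem Q_erase (h0 : i₀ ∈ C.s) (h1 : C.M i₀ i₀ = -C.δ i₀) (ht : i₀ ∈ t) (c : ι → ℚ) :
    C.Q t c + C.δ i₀ * (c i₀ - ∑ i ∈ t.erase i₀, c i * C.m i₀ i) ^ 2 =
      ∑ i ∈ t.erase i₀, ∑ j ∈ t.erase i₀,
        c i * c j * ((C.M i j + C.m i₀ i * C.m i₀ j * C.δ i₀ : ℤ) : ℚ) := by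
  have e1 : C.Q t c = c i₀ * c i₀ * C.M i₀ i₀ + 2 * c i₀ * C.δ i₀ *
      ∑ i ∈ t.erase i₀, c i * C.m i₀ i + C.Q (t.erase i₀) c := by
    unfold Q
    rw [← add_sum_erase t _ ht, ← add_sum_erase t _ ht]
    have e2 : ∀ i ∈ t.erase i₀, ∑ j ∈ t, c i * c j * (C.M i j : ℚ) =
        c i₀ * C.δ i₀ * (c i * C.m i₀ i) + ∑ j ∈ t.erase i₀, c i * c j * (C.M i j : ℚ) := by
      intro i _
      rw [← add_sum_erase t _ ht, C.symm i i₀, ← m_mulQ h0]
      ring
    have e3 : ∑ j ∈ t.erase i₀, c i₀ * c j * (C.M i₀ j : ℚ) =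
        c i₀ * C.δ i₀ * ∑ i ∈ t.erase i₀, c i * C.m i₀ i := by
      rw [mul_sum]
      exact sum_congr rfl fun j _ => by rw [← m_mulQ h0]; ring
    rw [sum_congr rfl e2, sum_add_distrib, e3, ← mul_sum]
    ring
  have e4 : ∑ i ∈ t.erase i₀, ∑ j ∈ t.erase i₀,
      c i * c j * ((C.M i j + C.m i₀ i * C.m i₀ j * C.δ i₀ : ℤ) : ℚ) =
      C.Q (t.erase i₀) c + C.δ i₀ * (∑ i ∈ t.erase i₀, c i * C.m i₀ i) ^ 2 := by
    rw [Q, sq, sum_mul_sum, mul_sum, ← sum_add_distrib]
    refine sum_congr rfl fun i _ => ?_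
    rw [mul_sum, ← sum_add_distrib]
    exact sum_congr rfl fun j _ => by push_cast; ring
  rw [e4, e1, h1]
  push_cast
  ring

variable (C) in
/-- contraction of the `(-1)`-curve `E i₀` -/
def bd (i₀ : ι) (h0 : i₀ ∈ C.s) (hk : C.k i₀ < 0) : Cfg ι where
  s := C.s.erase i₀
  M i j := if i = i₀ ∨ j = i₀ then 0 else C.M i j + C.m i₀ i * C.m i₀ j * C.δ i₀
  δ := C.δ
  k j := C.k j + C.m i₀ j * C.k i₀
  symm i j := by simp only [or_comm, C.symm i j, mul_comm (C.m i₀ i)]
  off i j hij := by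
    split_ifs with h
    · exact le_rfl
    · push Not at h
      exact add_nonneg (C.off i j hij)
        (mul_nonneg (mul_nonneg (m_nonneg h0 h.1) (m_nonneg h0 h.2)) (C.δ_pos _ h0).le)
  δ_pos i hi := C.δ_pos i (mem_of_mem_erase hi)
  dvdM i hi j := by
    split_ifs with h
    · exact dvd_zero _
    · refine (C.dvdM i (mem_of_mem_erase hi) j).add ?_
      rw [mul_right_comm, m_mul h0, C.symm]
      exact (C.dvdM i (mem_of_mem_erase hi) i₀).mul_right _
  dvdk i hi := by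
    refine (C.dvdk i (mem_of_mem_erase hi)).add ?_
    rw [(one_of_neg h0 hk).1, mul_neg, m_mul h0, C.symm]
    exact (C.dvdM i (mem_of_mem_erase hi) i₀).neg_right
  neg c hc := by
    obtain ⟨i, hi, hc⟩ := hc
    let c' : ι → ℚ := Function.update c i₀ (∑ i ∈ C.s.erase i₀, c i * C.m i₀ i)
    have h1 : ∀ j ∈ C.s.erase i₀, c' j = c j := fun j hj =>
      Function.update_of_ne (ne_of_mem_erase hj) _ _
    have h2 := Q_erase h0 (one_of_neg h0 hk).2 h0 c'
    have h3 : C.Q C.s c' < 0 := C.neg c' ⟨i, mem_of_mem_erase hi, by rwa [h1 i hi]⟩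
    have h4 : c' i₀ - ∑ i ∈ C.s.erase i₀, c' i * C.m i₀ i = 0 := by
      rw [sum_congr rfl fun j hj => by rw [h1 j hj]]
      simp [c']
    rw [h4] at h2
    refine lt_of_eq_of_lt ?_ (lt_of_eq_of_lt h2.symm (by simpa using h3))
    refine sum_congr rfl fun i hi => sum_congr rfl fun j hj => ?_
    rw [h1 i hi, h1 j hj, if_neg (by simp [ne_of_mem_erase hi, ne_of_mem_erase hj])]
  adj i hi := by
    have hi0 := ne_of_mem_erase hi
    rw [if_neg (by simp [hi0]), (one_of_neg h0 hk).1]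
    have h1 := C.adj i (mem_of_mem_erase hi)
    have h2 := m_nonneg h0 hi0
    have h3 := C.δ_pos _ h0
    have h4 : 0 ≤ C.m i₀ i * (C.m i₀ i - 1) := by
      rcases h2.eq_or_lt with h | h
      · rw [← h]; simp
      · exact mul_nonneg h2 (by omega)
    nlinarith [mul_nonneg h4 h3.le]

variable {h0 : i₀ ∈ C.s} {hk : C.k i₀ < 0}

theorem bd_M {i j : ι} (hi : i ≠ i₀) (hj : j ≠ i₀) :
    (C.bd i₀ h0 hk).M i j = C.M i j + C.m i₀ i * C.m i₀ j * C.δ i₀ := if_neg (by simp [hi, hj])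

variable (C) in
/-- the degrees of the push-forward -/
def pu (i₀ : ι) (u : ι → ℚ) (j : ι) : ℚ := u j + C.m i₀ j * u i₀

theorem coef_eq (h0 : i₀ ∈ C.s) (hk : C.k i₀ < 0) (ht : i₀ ∈ t) (h : C.ev t u c i₀ = 0) :
    c i₀ * C.δ i₀ = u i₀ + (∑ i ∈ t.erase i₀, c i * C.m i₀ i) * C.δ i₀ := by
  rw [ev, ← add_sum_erase t _ ht, (one_of_neg h0 hk).2] at h
  have e : ∑ i ∈ t.erase i₀, c i * (C.M i₀ i : ℚ) =
      (∑ i ∈ t.erase i₀, c i * C.m i₀ i) * C.δ i₀ := by
    rw [sum_mul]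
    exact sum_congr rfl fun j _ => by rw [← m_mulQ h0]; ring
  rw [e] at h
  push_cast at h
  linarith

theorem ev_bd (ht : i₀ ∈ t) (h : C.ev t u c i₀ = 0) {j : ι} (hj : j ≠ i₀) :
    (C.bd i₀ h0 hk).ev (t.erase i₀) (C.pu i₀ u) c j = C.ev t u c j := by
  have h1 := coef_eq h0 hk ht h
  have e : ∑ i ∈ t.erase i₀, c i * ((C.bd i₀ h0 hk).M j i : ℚ) =
      ∑ i ∈ t.erase i₀, c i * (C.M j i : ℚ) +
        C.m i₀ j * ((∑ i ∈ t.erase i₀, c i * C.m i₀ i) * C.δ i₀) := by
    rw [sum_mul, mul_sum, ← sum_add_distrib]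
    refine sum_congr rfl fun i hi => ?_
    rw [bd_M hj (ne_of_mem_erase hi)]
    push_cast
    ring
  rw [ev, ev, e, ← add_sum_erase t _ ht, C.symm j i₀, ← m_mulQ h0 j, pu]
  linear_combination (-(C.m i₀ j : ℚ)) * h1

theorem Sol.bd (h : C.Sol t u c) (ht : i₀ ∈ t) :
    (C.bd i₀ h0 hk).Sol (t.erase i₀) (C.pu i₀ u) c := fun j hj => by
  rw [ev_bd ht (h _ ht) (ne_of_mem_erase hj), h j (mem_of_mem_erase hj)]

theorem pu_k (j : ι) : C.pu i₀ (fun j => C.k j) j = (C.bd i₀ h0 hk).k j := by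
  simp [pu, bd]

theorem pu_M (he : e ≠ i₀) {j : ι} (hj : j ≠ i₀) :
    C.pu i₀ (fun j => C.M j e) j = (C.bd i₀ h0 hk).M j e := by
  rw [bd_M hj he, pu, ← m_mulQ h0]
  push_cast
  ring

theorem erase_sub (ht : t ⊆ C.s) : t.erase i₀ ⊆ (C.bd i₀ h0 hk).s := erase_subset_erase _ ht

/-- `u j` is a multiple of the weight -/
def Dv (C : Cfg ι) (t : Finset ι) (u : ι → ℚ) : Prop := ∀ j ∈ t, ∃ z : ℤ, u j = z * C.δ j

theorem Dv.bd (h : C.Dv t u) (hs : t ⊆ C.s) (ht : i₀ ∈ t) :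
    (C.bd i₀ h0 hk).Dv (t.erase i₀) (C.pu i₀ u) := fun j hj => by
  obtain ⟨z, hz⟩ := h j (mem_of_mem_erase hj)
  obtain ⟨z₀, hz₀⟩ := h i₀ ht
  obtain ⟨w, hw⟩ := C.dvdM j (hs (mem_of_mem_erase hj)) i₀
  refine ⟨z + z₀ * w, ?_⟩
  have h1 := m_mulQ h0 j
  rw [C.symm, hw] at h1
  change C.pu i₀ u j = _ * (C.δ j : ℚ)
  rw [pu, hz, hz₀]
  push_cast at h1 ⊢
  linear_combination (z₀ : ℚ) * h1

/-! ### the theorems -/

/-- **terminal implies factorial**: all pull-back coefficients are integers -/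
theorem Sol.int {a : ι → ℚ} (ht : t ⊆ C.s) (hK : C.Sol t (fun j => C.k j) a)
    (ha : ∀ i ∈ t, a i < 0) (hu : C.Dv t u) (h : C.Sol t u c) : ∀ i ∈ t, ∃ z : ℤ, c i = z := by
  induction hn : t.card generalizing C t u with
  | zero => rw [card_eq_zero.1 hn]; simp
  | succ n ih =>
    obtain ⟨i₀, hi, hk⟩ := hK.exists_neg ht (card_pos.1 (by omega)) ha
    have h0 := ht hi
    have h1 := ih (erase_sub (h0 := h0) (hk := hk) ht)
      ((hK.bd hi).congr fun j _ => pu_k j) (fun i hi => ha i (mem_of_mem_erase hi))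
      (hu.bd ht hi) (h.bd hi) (by rw [card_erase_of_mem hi, hn]; rfl)
    intro i hi'
    by_cases hii : i = i₀
    · subst hii
      choose! z hz using h1
      obtain ⟨z₀, hz₀⟩ := hu i hi
      have h2 := coef_eq h0 hk hi (h _ hi)
      refine ⟨z₀ + ∑ j ∈ t.erase i, z j * C.m i j, ?_⟩
      have h3 : (C.δ i : ℚ) ≠ 0 := by exact_mod_cast (C.δ_pos i h0).ne'
      refine mul_right_cancel₀ h3 ?_
      rw [h2, hz₀, sum_congr rfl fun j hj => by rw [hz j hj]]
      push_cast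
      ring
    · exact h1 i (mem_erase.2 ⟨hii, hi'⟩)

theorem dv_k (ht : t ⊆ C.s) : C.Dv t fun j => C.k j := fun j hj => by
  obtain ⟨z, hz⟩ := C.dvdk j (ht hj)
  exact ⟨z, by simp only [hz]; push_cast; ring⟩

theorem dv_M (ht : t ⊆ C.s) (e : ι) : C.Dv t fun j => C.M j e := fun j hj => by
  obtain ⟨z, hz⟩ := C.dvdM j (ht hj) e
  exact ⟨z, by simp only [hz]; push_cast; ring⟩

/-- terminal discrepancies are at least one -/
theorem Sol.le_neg_one {a : ι → ℚ} (ht : t ⊆ C.s) (hK : C.Sol t (fun j => C.k j) a)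
    (ha : ∀ i ∈ t, a i < 0) : ∀ i ∈ t, a i ≤ -1 := fun i hi => by
  obtain ⟨z, hz⟩ := Sol.int ht hK ha (dv_k ht) hK i hi
  have h1 := ha i hi
  rw [hz] at h1 ⊢
  have : z < 0 := by exact_mod_cast h1
  exact_mod_cast (by omega : z ≤ -1)

/-- **the different is effective**: `u` is the degree of a reduced curve, `θ` of an effective
boundary, `c` the crepant coefficients of `K + U + Θ` -/
theorem Sol.diff {θ : ι → ℚ} (ht : t ⊆ C.s) (hu : C.Dv t u) (hu0 : ∀ j ∈ t, 0 ≤ u j)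
    (hθ : ∀ j ∈ t, 0 ≤ θ j) (h : C.Sol t (fun j => C.k j + u j + θ j) c) :
    ∀ i ∈ t, 0 < u i → 0 ≤ c i := by
  induction hn : t.card generalizing C t u θ with
  | zero => rw [card_eq_zero.1 hn]; simp
  | succ n ih =>
    by_cases hex : ∃ i ∈ t, C.k i < 0
    · obtain ⟨i₀, hi, hk⟩ := hex
      have h0 := ht hi
      have hm : ∀ j ∈ t.erase i₀, (0 : ℚ) ≤ C.m i₀ j := fun j hj => by
        exact_mod_cast m_nonneg h0 (ne_of_mem_erase hj)
      have hp : ∀ {x : ι → ℚ}, (∀ j ∈ t, 0 ≤ x j) → ∀ j ∈ t.erase i₀, x j ≤ C.pu i₀ x j :=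
        fun hx j hj => le_add_of_nonneg_right (mul_nonneg (hm j hj) (hx _ hi))
      have h1 := ih (C := C.bd i₀ h0 hk) (θ := C.pu i₀ θ) (erase_sub ht) (hu.bd ht hi)
        (fun j hj => (hu0 j (mem_of_mem_erase hj)).trans (hp hu0 j hj))
        (fun j hj => (hθ j (mem_of_mem_erase hj)).trans (hp hθ j hj))
        ((h.bd hi).congr fun j _ => by rw [← pu_k]; simp only [pu]; ring)
        (by rw [card_erase_of_mem hi, hn]; rfl)
      intro i hi' hpos
      by_cases hii : i = i₀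
      · subst hii
        have h2 := coef_eq h0 hk hi (h _ hi)
        have h3 : (0 : ℚ) < C.δ i := by exact_mod_cast C.δ_pos i h0
        have h4 : 0 ≤ ∑ j ∈ t.erase i, c j * C.m i j := sum_nonneg fun j hj => by
          rcases (hm j hj).eq_or_lt with h5 | h5
          · rw [← h5, mul_zero]
          · exact mul_nonneg (h1 j hj (add_pos_of_nonneg_of_pos (hu0 j (mem_of_mem_erase hj))
              (mul_pos h5 hpos))) h5.le
        obtain ⟨z, hz⟩ := hu i hi
        have h6 : (1 : ℚ) ≤ z := by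
          have : (0 : ℚ) < z := (mul_pos_iff_of_pos_right h3).1 (hz ▸ hpos)
          exact_mod_cast (by exact_mod_cast this : (0 : ℤ) < z)
        have h7 : (C.k i : ℚ) = -C.δ i := by exact_mod_cast (one_of_neg h0 hk).1
        have h8 := hθ i hi
        rw [h7, hz] at h2
        refine nonneg_of_mul_nonneg_left (b := C.δ i) ?_ h3
        nlinarith [mul_nonneg h4 h3.le]
      · have hj := mem_erase.2 ⟨hii, hi'⟩
        exact h1 i hj (hpos.trans_le (hp hu0 i hj))
    · push Not at hex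
      intro i hi _
      refine h.nonneg ht (fun j hj => ?_) i hi
      have : (0 : ℚ) ≤ C.k j := by exact_mod_cast hex j hj
      have := hu0 j hj
      have := hθ j hj
      positivity

theorem extr0 {a a' : ι → ℚ} (ht : t ⊆ C.s) (he : e ∈ C.s) (het : e ∉ t)
    (hZ : C.Sol t (fun j => C.k j) a) (ha : ∀ i ∈ t, a i < 0)
    (hY : C.Sol (insert e t) (fun j => C.k j) a') (ha' : a' e < 0)
    (hE : C.Sol t (fun j => C.M j e) c) :
    a' e = -1 ∧ C.ev t (fun j => C.k j) a e = -C.δ e ∧ C.ev t (fun j => C.M j e) c e = -C.δ e := by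
  induction hn : t.card generalizing C t with
  | zero =>
    obtain rfl := card_eq_zero.1 hn
    have h1 := hY e (mem_insert_self _ _)
    simp only [ev, insert_empty_eq, sum_singleton, sum_empty, add_zero] at h1 ⊢
    have h2 : (C.M e e : ℚ) < 0 := by exact_mod_cast M_neg he
    have h3 : C.k e < 0 := by
      have : (C.k e : ℚ) < 0 := by nlinarith
      exact_mod_cast this
    obtain ⟨h4, h5⟩ := one_of_neg he h3
    have h6 : (0 : ℚ) < C.δ e := by exact_mod_cast C.δ_pos e he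
    rw [h4, h5] at h1 ⊢
    push_cast at h1 ⊢
    exact ⟨mul_right_cancel₀ h6.ne' (by linarith), rfl, rfl⟩
  | succ n ih =>
    obtain ⟨i₀, hi, hk⟩ := hZ.exists_neg ht (card_pos.1 (by omega)) ha
    have h0 := ht hi
    have hne : e ≠ i₀ := fun h => het (h ▸ hi)
    have h1 := (hY.bd (h0 := h0) (hk := hk) (mem_insert_of_mem hi)).congr
      fun j _ => pu_k (h0 := h0) (hk := hk) j
    rw [erase_insert_of_ne hne] at h1
    obtain ⟨h2, h3, h4⟩ := ih (erase_sub (h0 := h0) (hk := hk) ht) (mem_erase.2 ⟨hne, he⟩)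
      (fun h => het (mem_of_mem_erase h)) ((hZ.bd hi).congr fun j _ => pu_k j)
      (fun i hi => ha i (mem_of_mem_erase hi)) h1
      ((hE.bd hi).congr fun j hj => pu_M hne (ne_of_mem_erase hj))
      (by rw [card_erase_of_mem hi, hn]; rfl)
    refine ⟨h2, ?_, ?_⟩
    · rw [← ev_bd (h0 := h0) (hk := hk) hi (hZ _ hi) hne, ev, pu_k (h0 := h0) (hk := hk)]
      exact h3
    · rw [← ev_bd (h0 := h0) (hk := hk) hi (hE _ hi) hne, ev, pu_M (h0 := h0) (hk := hk) hne hne]
      exact h4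

/-- **extraction**: `t` is contracted on the terminal `Z`, `insert e t` on `Y`.  Then the
discrepancy of `e` is one, `K_Z · e = e · e = -δ`, the genus is zero and the different vanishes. -/
theorem extr {a a' : ι → ℚ} (ht : t ⊆ C.s) (he : e ∈ C.s) (het : e ∉ t)
    (hZ : C.Sol t (fun j => C.k j) a) (ha : ∀ i ∈ t, a i < 0)
    (hY : C.Sol (insert e t) (fun j => C.k j) a') (ha' : a' e < 0)
    (hE : C.Sol t (fun j => C.M j e) c) :
    a' e = -1 ∧ C.ev t (fun j => C.k j) a e = -C.δ e ∧ C.ev t (fun j => C.M j e) c e = -C.δ e ∧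
      C.k e + C.M e e = -2 * C.δ e ∧ ∀ i ∈ t, C.M i e ≠ 0 → a i + c i = 0 := by
  obtain ⟨h1, h2, h3⟩ := extr0 ht he het hZ ha hY ha' hE
  have hM : ∀ j ∈ t, (0 : ℚ) ≤ C.M j e := fun j hj => by
    exact_mod_cast C.off j e fun h => het (h ▸ hj)
  have h4 := Sol.diff (θ := 0) (c := a + c) ht (dv_M ht e) hM (fun _ _ => le_rfl)
    ((hZ.add hE).congr fun j _ => by simp)
  have h5 : ∀ i ∈ t, 0 ≤ (a i + c i) * C.M e i := fun i hi => by
    rw [C.symm]
    rcases (hM i hi).eq_or_lt with h | h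
    · rw [← h, mul_zero]
    · exact mul_nonneg (h4 i hi h) h.le
  have h6 : (C.k e + C.M e e : ℚ) + ∑ i ∈ t, (a i + c i) * C.M e i = -2 * C.δ e := by
    simp only [ev] at h2 h3
    simp only [add_mul, sum_add_distrib]
    linarith
  have h7 : (-2 * C.δ e : ℚ) ≤ C.k e + C.M e e := by exact_mod_cast C.adj e he
  have h8 := sum_nonneg h5
  have h9 : ∑ i ∈ t, (a i + c i) * C.M e i = 0 := by linarith
  refine ⟨h1, h2, h3, ?_, fun i hi hne => ?_⟩
  · have : (C.k e + C.M e e : ℚ) = -2 * C.δ e := by linarith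
    exact_mod_cast this
  · have h10 := (sum_eq_zero_iff_of_nonneg h5).1 h9 i hi
    rw [C.symm] at h10
    exact (mul_eq_zero.1 h10).resolve_right (by exact_mod_cast hne)

/-- **one third**: `X` are the curves exceptional over a smooth model with `K = ∑ α i E i`,
`e ∉ X` is a curve whose total transform has positive square -/
theorem third {θ α z : ι → ℚ} {X : Finset ι} (ht : t ⊆ C.s) (he : e ∈ t) (heX : e ∉ X)
    (hα : ∀ i ∈ X, 0 < α i) (hK : ∀ j ∈ t, (C.k j : ℚ) = ∑ i ∈ X, α i * C.M j i)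
    (hX : ∀ x, C.Q X x ≤ 0) (hz1 : z e = 1) (hz : 0 < C.Q (insert e X) z)
    (hθ : ∀ j ∈ t, 0 ≤ θ j) (h : C.Sol t (fun j => C.k j + θ j) c) : 1 / 3 ≤ c e := by
  induction hn : t.card generalizing C t θ X with
  | zero => rw [card_eq_zero.1 hn] at he; simp at he
  | succ n ih =>
    have hnn : ∀ j ∈ t, j ∉ X → ∀ i ∈ X, 0 ≤ α i * (C.M j i : ℚ) := fun j _ hj i hi =>
      mul_nonneg (hα i hi).le (by exact_mod_cast C.off j i fun h => hj (h ▸ hi))
    by_cases hex : ∃ i ∈ t, C.k i < 0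
    · obtain ⟨i₀, hi, hk⟩ := hex
      have h0 := ht hi
      have hiX : i₀ ∈ X := by
        by_contra hcon
        have h1 := sum_nonneg (hnn i₀ hi hcon)
        rw [← hK i₀ hi] at h1
        exact absurd hk (not_lt.2 (by exact_mod_cast h1))
      have hne : e ≠ i₀ := fun h => heX (h ▸ hiX)
      have hM := (one_of_neg h0 hk).2
      have hQ : ∀ {Y : Finset ι}, i₀ ∈ Y → ∀ x, (C.bd i₀ h0 hk).Q (Y.erase i₀) x =
          C.Q Y x + C.δ i₀ * (x i₀ - ∑ i ∈ Y.erase i₀, x i * C.m i₀ i) ^ 2 := fun hY x => by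
        rw [Q_erase h0 hM hY]
        exact sum_congr rfl fun i hi => sum_congr rfl fun j hj => by
          rw [bd_M (ne_of_mem_erase hi) (ne_of_mem_erase hj)]
      have hδ : (0 : ℚ) < C.δ i₀ := by exact_mod_cast C.δ_pos _ h0
      refine ih (C := C.bd i₀ h0 hk) (θ := C.pu i₀ θ) (X := X.erase i₀) (erase_sub ht)
        (mem_erase.2 ⟨hne, he⟩) (fun h => heX (mem_of_mem_erase h))
        (fun i hi => hα i (mem_of_mem_erase hi)) (fun j hj => ?_) (fun x => ?_) ?_ (fun j hj => ?_)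
        ((h.bd hi).congr fun j _ => by rw [← pu_k]; simp only [pu]; ring)
        (by rw [card_erase_of_mem hi, hn]; rfl)
      · have h1 : C.ev X (fun j => -(C.k j : ℚ)) α i₀ = 0 := by rw [ev, hK i₀ hi]; ring
        have h2 := ev_bd (h0 := h0) (hk := hk) hiX h1 (ne_of_mem_erase hj)
        rw [ev, ev, ← hK j (mem_of_mem_erase hj), pu] at h2
        rw [← pu_k, pu]
        linarith
      · let x' : ι → ℚ := Function.update x i₀ (∑ i ∈ X.erase i₀, x i * C.m i₀ i)
        have h1 : ∀ j ∈ X.erase i₀, x' j = x j := fun j hj =>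
          Function.update_of_ne (ne_of_mem_erase hj) _ _
        have h2 : (C.bd i₀ h0 hk).Q (X.erase i₀) x = (C.bd i₀ h0 hk).Q (X.erase i₀) x' :=
          sum_congr rfl fun i hi => sum_congr rfl fun j hj => by rw [h1 i hi, h1 j hj]
        have h3 : x' i₀ - ∑ i ∈ X.erase i₀, x' i * C.m i₀ i = 0 := by
          rw [sum_congr rfl fun j hj => by rw [h1 j hj]]
          simp [x']
        rw [h2, hQ hiX, h3]
        simpa using hX x'
      · rw [← erase_insert_of_ne hne, hQ (mem_insert_of_mem hiX)]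
        positivity
      · exact add_nonneg (hθ j (mem_of_mem_erase hj))
          (mul_nonneg (by exact_mod_cast m_nonneg h0 (ne_of_mem_erase hj)) (hθ _ hi))
    · push Not at hex
      have hk0 : ∀ j ∈ t, (0 : ℚ) ≤ C.k j := fun j hj => by exact_mod_cast hex j hj
      have hc := h.nonneg ht fun j hj => add_nonneg (hk0 j hj) (hθ j hj)
      have hMe : (C.M e e : ℚ) < 0 := by exact_mod_cast M_neg (ht he)
      have hke : C.k e ≠ 0 := fun h1 => by
        have h2 := hK e he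
        rw [h1, Int.cast_zero] at h2
        have h3 := (sum_eq_zero_iff_of_nonneg (hnn e he heX)).1 h2.symm
        have h4 : ∀ i ∈ X, (C.M e i : ℚ) = 0 := fun i hi =>
          (mul_eq_zero.1 (h3 i hi)).resolve_left (hα i hi).ne'
        have h5 : C.Q (insert e X) z = C.M e e + C.Q X z := by
          unfold Q
          rw [sum_insert heX, sum_insert heX, hz1, sum_eq_zero fun i hi => by rw [h4 i hi, mul_zero]]
          rw [sum_congr rfl fun i hi => by rw [sum_insert heX, C.symm i e, h4 i hi]]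
          simp
        have := hX z
        linarith
      have h1 : C.δ e ≤ C.k e :=
        Int.le_of_dvd (lt_of_le_of_ne (hex e he) hke.symm) (C.dvdk e (ht he))
      have h2 : (C.δ e : ℚ) ≤ C.k e := by exact_mod_cast h1
      have h3 : (-2 * C.δ e : ℚ) ≤ C.k e + C.M e e := by exact_mod_cast C.adj e (ht he)
      have h4 := h e he
      rw [ev, ← add_sum_erase t _ he] at h4
      have h5 : 0 ≤ ∑ i ∈ t.erase e, c i * (C.M e i : ℚ) := sum_nonneg fun i hi =>
        mul_nonneg (hc i (mem_of_mem_erase hi))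
          (by exact_mod_cast C.off e i (ne_of_mem_erase hi).symm)
      have h6 := hθ e he
      have h7 := hc e he
      have h8 : (0 : ℚ) < C.δ e := by exact_mod_cast C.δ_pos e (ht he)
      by_contra hcon
      push Not at hcon
      nlinarith

end Cfg

end Crest.Agent.X262.Slc57
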